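import Vale.Agent.P052.R2.H495.Tent
import Mathlib.LinearAlgebra.Dimension.Finrank
import Mathlib.Data.Finset.Card

/-!
M4 of the plain Borsuk-Ulam route: Lemma (L).
-/

namespace Vale.Agent.P052.R2.H495

open Module

abbrev E4 := EuclideanSpace ℝ (Fin 4)

/-- `r(I) ≤ d`: the colours of `I` vanish on a subspace of codimension `≤ d` -/
def RR (h : Fin 10 → E4 → ℝ) (I : Finset (Fin 10)) (d : ℕ) : Prop :=
  ∃ W : Submodule ℝ E4, 4 ≤ finrank ℝ W + d ∧ ∀ i ∈ I, ∀ w ∈ W, h i w = 0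

/-- the statement of Lemma E for one `m` (helper38) -/
def LemE (h : Fin 10 → E4 → ℝ) (m : ℕ) : Prop :=
  ∀ (j : EuclideanSpace ℝ (Fin m) →ₗᵢ[ℝ] E4)
    (Φ : (EuclideanSpace ℝ (Fin m) →L[ℝ] EuclideanSpace ℝ (Fin m)) → Fin 10 → ℝ),
    Continuous Φ → (∀ (r : ℝ) s, 0 ≤ r → Φ (r • s) = r • Φ s) →
    (∀ s, s.IsPositive → ∀ i, 0 ≤ Φ s i) →
    (∀ s, s.IsPositive → s ≠ 0 → ∃ i, 0 < Φ s i) →
    (∀ s, s.IsPositive → ∀ i, 0 < Φ s i → ∃ x, 0 < h i (j (s x))) →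
    ∃ s, s.IsPositive ∧ ∀ W : Submodule ℝ E4,
      (∀ i, 0 < Φ s i → ∀ w ∈ W, h i w = 0) → finrank ℝ W + m ≤ 4

/-- an isometric parametrisation of a subspace -/
theorem exists_param (U : Submodule ℝ E4) (m : ℕ) (hU : finrank ℝ U = m) :
    ∃ j : EuclideanSpace ℝ (Fin m) →ₗᵢ[ℝ] E4, ∀ u, u ∈ U ↔ ∃ x, j x = u := by
  let b := (stdOrthonormalBasis ℝ U).reindex (finCongr hU)
  refine ⟨U.subtypeₗᵢ.comp b.repr.symm.toLinearIsometry, fun u => ⟨fun hu => ?_, ?_⟩⟩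
  · refine ⟨b.repr ⟨u, hu⟩, ?_⟩
    simp
  · rintro ⟨x, rfl⟩
    simp

theorem RR_mono {h : Fin 10 → E4 → ℝ} {I J : Finset (Fin 10)} {d : ℕ} (hIJ : I ⊆ J)
    (hJ : RR h J d) : RR h I d := by
  obtain ⟨W, h1, h2⟩ := hJ
  exact ⟨W, h1, fun i hi => h2 i (hIJ hi)⟩

/-- Lemma (L), with the facts of the rank calculus as hypotheses: `U` is a plane with colour set
`I`, and every set of fewer than three colours has rank at most one. -/
theorem lemL {h : Fin 10 → E4 → ℝ} (hcont : ∀ i, Continuous (h i))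
    (hhom : ∀ i (a : ℝ) x, h i (a • x) = |a| * h i x) (hpos : ∀ x, x ≠ 0 → ∃ i, 0 < h i x)
    (hE : LemE h 2) (hsmall : ∀ T : Finset (Fin 10), T.card < 3 → RR h T 1)
    (I : Finset (Fin 10)) (U : Submodule ℝ E4) (hU2 : finrank ℝ U = 2)
    (hUI : ∀ i, i ∈ I ↔ ∃ u ∈ U, 0 < h i u) (o : Fin 10) (ho : o ∈ I) :
    ∃ T ⊆ I, o ∈ T ∧ T.card = 3 ∧ ¬ RR h T 1 := by
  by_contra hcon
  push Not at hcon
  obtain ⟨j, hj⟩ := exists_param U 2 hU2
  have hmemI : ∀ i, (∃ x, 0 < h i (j x)) → i ∈ I := by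
    rintro i ⟨x, hx⟩
    exact (hUI i).2 ⟨j x, (hj _).2 ⟨x, rfl⟩, hx⟩
  have hoI : ∃ x, 0 < h o (j x) := by
    obtain ⟨u, hu, hu2⟩ := (hUI o).1 ho
    obtain ⟨x, rfl⟩ := (hj u).1 hu
    exact ⟨x, hu2⟩
  obtain ⟨Φ, h1, h2, h3, h4, h5, h6⟩ := exists_tents (fun i x => h i (j x))
    (fun i => (hcont i).comp j.continuous) (fun i a x => by simp [hhom])
    (fun x hx => hpos _ (fun h0 => hx (j.injective (by rw [h0, map_zero])))) o hoI
  obtain ⟨s, hs, hW⟩ := hE j Φ h1 h2 (fun s _ i => h3 s i) h4 h5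
  obtain ⟨p, q, hp, hq, hpq⟩ := h6 s
  have hT : RR h {p, q, o} 1 := by
    by_cases hc : ({p, q, o} : Finset (Fin 10)).card < 3
    · exact hsmall _ hc
    · have hc3 : ({p, q, o} : Finset (Fin 10)).card = 3 :=
        le_antisymm Finset.card_le_three (not_lt.1 hc)
      refine hcon _ ?_ (by simp) hc3
      intro i hi
      simp only [Finset.mem_insert, Finset.mem_singleton] at hi
      rcases hi with rfl | rfl | rfl
      · exact hmemI _ hp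
      · exact hmemI _ hq
      · exact ho
  obtain ⟨W, hW1, hW2⟩ := hT
  have := hW W (fun i hi w hw => hW2 i (by
    rcases hpq i hi with rfl | rfl | rfl <;> simp) w hw)
  omega

end Vale.Agent.P052.R2.H495
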