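import Mathlib.Analysis.InnerProductSpace.Positive
import Mathlib.Analysis.InnerProductSpace.PiL2
import Mathlib.Analysis.SpecialFunctions.Trigonometric.Bounds
import Mathlib.Analysis.SpecialFunctions.Complex.Arg
import Mathlib.Topology.MetricSpace.Thickening

/-!
Tents on the projective line of a Euclidean plane, as functions of a symmetric operator.
-/

namespace Vale.Agent.P052.R2.H495

open Module

/-- the plane -/
abbrev E2 := EuclideanSpace ℝ (Fin 2)

/-- unit vector with angle `θ` -/
noncomputable def un (θ : ℝ) : E2 := !₂[Real.cos θ, Real.sin θ]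

theorem norm_un (θ : ℝ) : ‖un θ‖ = 1 := by
  rw [EuclideanSpace.norm_eq]
  simp [un, Fin.sum_univ_two, sq_abs, Real.cos_sq_add_sin_sq]

theorem un_ne (θ : ℝ) : un θ ≠ 0 := by
  intro h
  have := norm_un θ
  rw [h, norm_zero] at this
  exact zero_ne_one this

theorem dist_un (θ θ' : ℝ) : dist (un θ) (un θ') ≤ |θ - θ'| := by
  rw [EuclideanSpace.dist_eq]
  simp only [un, Fin.sum_univ_two, Real.dist_eq]
  apply Real.sqrt_le_iff.2 ⟨abs_nonneg _, ?_⟩
  have h := Real.one_sub_sq_div_two_le_cos (x := θ - θ')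
  rw [Real.cos_sub] at h
  simp only [sq_abs]
  have h1 := Real.sin_sq_add_cos_sq θ
  have h2 := Real.sin_sq_add_cos_sq θ'
  simp
  nlinarith

theorem un_add_pi (θ : ℝ) : un (θ + Real.pi) = - un θ := by
  ext i
  fin_cases i <;> simp [un]

theorem un_add_int (θ : ℝ) (k : ℤ) : un (θ + k * Real.pi) = un θ ∨ un (θ + k * Real.pi) = - un θ := by
  induction k using Int.induction_on with
  | zero => left; simp
  | succ n ih =>
    have e : θ + ((n : ℤ) + 1 : ℤ) * Real.pi = (θ + ((n : ℤ) : ℝ) * Real.pi) + Real.pi := by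
      push_cast; ring
    rw [e, un_add_pi]
    rcases ih with h | h
    · right; rw [h]
    · left; rw [h, neg_neg]
  | pred n ih =>
    have e : un (θ + ((-(n : ℤ) : ℤ) : ℝ) * Real.pi) =
        - un (θ + ((-(n : ℤ) - 1 : ℤ) : ℝ) * Real.pi) := by
      rw [← un_add_pi]
      congr 1
      push_cast; ring
    rcases ih with h | h
    · right; rw [← h, e, neg_neg]
    · left
      have : un (θ + ((-(n : ℤ) - 1 : ℤ) : ℝ) * Real.pi) =
        - un (θ + ((-(n : ℤ) : ℤ) : ℝ) * Real.pi) := by rw [e, neg_neg]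
      rw [this, h, neg_neg]

/-- an angle with large cosine is close to a multiple of `π` -/
theorem exists_near {x r : ℝ} (hr : 0 ≤ r) (hr' : 2 * r ≤ Real.pi)
    (h : Real.cos (2 * r) < Real.cos (2 * x)) : ∃ k : ℤ, |x - k * Real.pi| < r := by
  refine ⟨round (x / Real.pi), ?_⟩
  set k : ℤ := round (x / Real.pi) with hk
  have hp := Real.pi_pos
  have h1 : |x / Real.pi - k| ≤ 1 / 2 := abs_sub_round _
  set y := x - k * Real.pi with hy
  have h2 : y = (x / Real.pi - k) * Real.pi := by
    rw [hy, sub_mul, div_mul_cancel₀ _ hp.ne']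
  have h3 : |y| ≤ Real.pi / 2 := by
    rw [h2, abs_mul, abs_of_pos hp]
    nlinarith
  have h4 : Real.cos (2 * x) = Real.cos (2 * |y|) := by
    have : Real.cos (2 * |y|) = Real.cos (2 * y) := by
      rw [← Real.cos_abs (2 * y), abs_mul, abs_two]
    rw [this, hy]
    have e : 2 * (x - k * Real.pi) = 2 * x - k * (2 * Real.pi) := by ring
    rw [e, Real.cos_sub_int_mul_two_pi]
  by_contra hcon
  push Not at hcon
  have h5 : Real.cos (2 * |y|) ≤ Real.cos (2 * r) := by
    apply Real.cos_le_cos_of_nonneg_of_le_pi (by linarith) (by linarith) (by linarith)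
  rw [h4] at h
  linarith

end Vale.Agent.P052.R2.H495
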