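import Vale.Agent.P052.R2.H495.Circ

/-!
Entries of an operator of the plane, its traceless part `z` as a complex number.
-/

namespace Vale.Agent.P052.R2.H495

open Module

abbrev Op2 := E2 →L[ℝ] E2

/-- entries -/
noncomputable def ea (s : Op2) : ℝ := (s (EuclideanSpace.single 0 1)) 0
noncomputable def eb (s : Op2) : ℝ := (s (EuclideanSpace.single 0 1)) 1
noncomputable def ed (s : Op2) : ℝ := (s (EuclideanSpace.single 1 1)) 1

/-- traceless part -/
noncomputable def zz (s : Op2) : ℂ := ⟨ea s - ed s, 2 * eb s⟩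

theorem ea_smul (r : ℝ) (s : Op2) : ea (r • s) = r * ea s := by simp [ea]
theorem eb_smul (r : ℝ) (s : Op2) : eb (r • s) = r * eb s := by simp [eb]
theorem ed_smul (r : ℝ) (s : Op2) : ed (r • s) = r * ed s := by simp [ed]

theorem zz_smul (r : ℝ) (s : Op2) : zz (r • s) = (r : ℂ) * zz s := by
  apply Complex.ext
  · simp [zz, ea_smul, ed_smul]; ring
  · simp [zz, eb_smul]; ring

theorem cont_ea : Continuous ea := by unfold ea; fun_prop
theorem cont_eb : Continuous eb := by unfold eb; fun_prop
theorem cont_ed : Continuous ed := by unfold ed; fun_prop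

theorem cont_re : Continuous fun s => (zz s).re := by
  show Continuous fun s => ea s - ed s
  exact cont_ea.sub cont_ed

theorem cont_im : Continuous fun s => (zz s).im := by
  show Continuous fun s => 2 * eb s
  exact continuous_const.mul cont_eb

theorem cont_zz : Continuous zz := by
  have h : zz = fun s => ((((zz s).re : ℝ) : ℂ) + (((zz s).im : ℝ) : ℂ) * Complex.I) := by
    funext s
    exact (Complex.re_add_im (zz s)).symm
  rw [h]
  exact (Complex.continuous_ofReal.comp cont_re).add
    ((Complex.continuous_ofReal.comp cont_im).mul continuous_const)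

variable {s : Op2}

theorem symm_entry (hs : s.IsPositive) : (s (EuclideanSpace.single 1 1)) 0 = eb s := by
  have h := hs.isSymmetric (EuclideanSpace.single 1 1) (EuclideanSpace.single 0 1)
  simp only [ContinuousLinearMap.coe_coe, EuclideanSpace.inner_single_right,
    EuclideanSpace.inner_single_left] at h
  simpa [eb] using h

theorem decomp (x : E2) : x = x 0 • EuclideanSpace.single 0 1 + x 1 • EuclideanSpace.single 1 1 := by
  ext i
  fin_cases i <;> simp

theorem apply_zero (hs : s.IsPositive) (x : E2) : (s x) 0 = x 0 * ea s + x 1 * eb s := by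
  conv_lhs => rw [decomp x]
  rw [map_add, map_smul, map_smul]
  simp [ea, symm_entry hs]

theorem apply_one (_hs : s.IsPositive) (x : E2) : (s x) 1 = x 0 * eb s + x 1 * ed s := by
  conv_lhs => rw [decomp x]
  rw [map_add, map_smul, map_smul]
  simp [ed, eb]

theorem quad (hs : s.IsPositive) (x y : ℝ) :
    0 ≤ x * x * ea s + 2 * (x * y) * eb s + y * y * ed s := by
  have h := hs.inner_nonneg_left (!₂[x, y] : E2)
  rw [PiLp.inner_apply, Fin.sum_univ_two] at h
  simp only [apply_zero hs, apply_one hs, RCLike.inner_apply, conj_trivial] at h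
  simp at h
  nlinarith

theorem ea_nonneg (hs : s.IsPositive) : 0 ≤ ea s := by simpa using quad hs 1 0
theorem ed_nonneg (hs : s.IsPositive) : 0 ≤ ed s := by simpa using quad hs 0 1

theorem det_nonneg (hs : s.IsPositive) : eb s ^ 2 ≤ ea s * ed s := by
  have h := discrim_le_zero (a := ea s) (b := 2 * eb s) (c := ed s) (by
    intro x
    have := quad hs x 1
    nlinarith)
  unfold discrim at h
  nlinarith

theorem norm_zz_sq (s : Op2) : ‖zz s‖ ^ 2 = (ea s - ed s) ^ 2 + (2 * eb s) ^ 2 := by
  rw [Complex.sq_norm, Complex.normSq_apply]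
  simp [zz]
  ring

theorem norm_zz_le (hs : s.IsPositive) : ‖zz s‖ ≤ ea s + ed s := by
  have h1 := ea_nonneg hs
  have h2 := ed_nonneg hs
  have h3 := det_nonneg hs
  apply le_of_sq_le_sq _ (by linarith)
  rw [norm_zz_sq]
  nlinarith

theorem trace_pos (hs : s.IsPositive) (h0 : s ≠ 0) : 0 < ea s + ed s := by
  have h1 := ea_nonneg hs
  have h2 := ed_nonneg hs
  have h3 := det_nonneg hs
  rcases (add_nonneg h1 h2).lt_or_eq with h | h
  · exact h
  · exfalso
    apply h0
    have ha : ea s = 0 := by linarith
    have hd : ed s = 0 := by linarith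
    have hb : eb s = 0 := by
      rw [ha, zero_mul] at h3
      exact pow_eq_zero_iff (two_ne_zero) |>.1 (le_antisymm h3 (sq_nonneg _))
    ext x i
    fin_cases i
    · show (s x) 0 = 0
      rw [apply_zero hs, ha, hb]; ring
    · show (s x) 1 = 0
      rw [apply_one hs, hb, hd]; ring

theorem surj_of_lt (hs : s.IsPositive) (h : ‖zz s‖ < ea s + ed s) (y : E2) : ∃ x, s x = y := by
  have h1 : 0 < ea s * ed s - eb s ^ 2 := by
    have h2 := norm_nonneg (zz s)
    have h3 : ‖zz s‖ ^ 2 < (ea s + ed s) ^ 2 := by nlinarith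
    rw [norm_zz_sq] at h3
    nlinarith
  set D := ea s * ed s - eb s ^ 2 with hD
  refine ⟨!₂[(ed s * y 0 - eb s * y 1) / D, (ea s * y 1 - eb s * y 0) / D], ?_⟩
  ext i
  fin_cases i
  · show (s _) 0 = y 0
    rw [apply_zero hs]
    simp
    field_simp
    rw [hD]; ring
  · show (s _) 1 = y 1
    rw [apply_one hs]
    simp
    field_simp
    rw [hD]; ring

/-- the angle of the image when the operator has rank one -/
noncomputable def an (s : Op2) : ℝ := Complex.arg (zz s) / 2

theorem re_eq (s : Op2) : ea s - ed s = ‖zz s‖ * Real.cos (2 * an s) := by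
  have h := Complex.norm_mul_cos_arg (zz s)
  rw [an, mul_div_cancel₀ _ (two_ne_zero' ℝ), h]
  rfl

theorem im_eq (s : Op2) : 2 * eb s = ‖zz s‖ * Real.sin (2 * an s) := by
  have h := Complex.norm_mul_sin_arg (zz s)
  rw [an, mul_div_cancel₀ _ (two_ne_zero' ℝ), h]
  rfl

theorem apply_un (hs : s.IsPositive) (h : ‖zz s‖ = ea s + ed s) :
    s (un (an s)) = ‖zz s‖ • un (an s) := by
  have h1 := re_eq s
  have h2 := im_eq s
  rw [Real.cos_two_mul] at h1
  rw [Real.sin_two_mul] at h2
  have h3 := Real.sin_sq_add_cos_sq (an s)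
  set C := Real.cos (an s)
  set S := Real.sin (an s)
  set R := ‖zz s‖
  have ha : ea s = R * C ^ 2 := by linarith
  have hb : eb s = R * S * C := by linarith
  have hd : ed s = R * S ^ 2 := by
    have : S ^ 2 = 1 - C ^ 2 := by linarith
    rw [this]; linarith
  ext i
  fin_cases i
  · show (s _) 0 = R * C
    rw [apply_zero hs]
    show C * ea s + S * eb s = R * C
    rw [ha, hb]
    have : C * (R * C ^ 2) + S * (R * S * C) = R * C * (S ^ 2 + C ^ 2) := by ring
    rw [this, h3, mul_one]
  · show (s _) 1 = R * S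
    rw [apply_one hs]
    show C * eb s + S * ed s = R * S
    rw [hd, hb]
    have : C * (R * S * C) + S * (R * S ^ 2) = R * S * (S ^ 2 + C ^ 2) := by ring
    rw [this, h3, mul_one]

end Vale.Agent.P052.R2.H495
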