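import Vale.Agent.P052.R2.H495.Ent
import Mathlib.Topology.MetricSpace.Lipschitz

/-!
Tents: a continuous homogeneous map from positive operators of the plane to colour weights, with
at most two colours of the image line and one more colour `o`.
-/

namespace Vale.Agent.P052.R2.H495

open Module

/-- tent of half width `r` at the angle `φ` -/
noncomputable def tent (r φ : ℝ) (s : Op2) : ℝ :=
  max 0 ((zz s).re * Real.cos (2 * φ) + (zz s).im * Real.sin (2 * φ) - Real.cos (2 * r) * ‖zz s‖)

theorem cont_tent (r φ : ℝ) : Continuous (tent r φ) := by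
  unfold tent
  exact continuous_const.max (((cont_re.mul continuous_const).add
    (cont_im.mul continuous_const)).sub (continuous_const.mul cont_zz.norm))

theorem tent_nonneg (r φ : ℝ) (s : Op2) : 0 ≤ tent r φ s := le_max_left _ _

theorem tent_smul (r φ c : ℝ) (hc : 0 ≤ c) (s : Op2) : tent r φ (c • s) = c * tent r φ s := by
  unfold tent
  rw [mul_max_of_nonneg _ _ hc, mul_zero, zz_smul, norm_mul, Complex.norm_real, Real.norm_eq_abs,
    abs_of_nonneg hc]
  congr 1
  simp
  ring

theorem tent_eq (r φ : ℝ) (s : Op2) :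
    tent r φ s = max 0 (‖zz s‖ * (Real.cos (2 * (an s - φ)) - Real.cos (2 * r))) := by
  unfold tent
  congr 1
  have h1 : (zz s).re = ‖zz s‖ * Real.cos (2 * an s) := re_eq s
  have h2 : (zz s).im = ‖zz s‖ * Real.sin (2 * an s) := im_eq s
  rw [h1, h2, mul_sub 2, Real.cos_sub]
  ring

theorem tent_pos (r φ : ℝ) (s : Op2) : 0 < tent r φ s ↔
    0 < ‖zz s‖ ∧ Real.cos (2 * r) < Real.cos (2 * (an s - φ)) := by
  rw [tent_eq, lt_max_iff]
  simp only [lt_irrefl, false_or]
  constructor
  · intro h
    have h0 := norm_nonneg (zz s)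
    rcases h0.lt_or_eq with h1 | h1
    · exact ⟨h1, by have := (mul_pos_iff_of_pos_left h1).1 h; linarith⟩
    · rw [← h1, zero_mul] at h; exact absurd h (lt_irrefl _)
  · rintro ⟨h1, h2⟩
    exact mul_pos h1 (by linarith)

/-- uniform choice of colours on the circle -/
theorem exists_width (g : Fin 10 → E2 → ℝ) (hc : ∀ i, Continuous (g i))
    (hpos : ∀ x, x ≠ 0 → ∃ i, 0 < g i x) :
    ∃ η : ℝ, 0 < η ∧ ∀ θ : ℝ, ∃ i, ∀ θ' : ℝ, |θ' - θ| < η → 0 < g i (un θ') := by
  obtain ⟨δ, hδ, h⟩ := lebesgue_number_lemma_of_metric (s := Metric.sphere (0 : E2) 1)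
    (c := fun i : Fin 10 => {x | 0 < g i x}) (isCompact_sphere _ _)
    (fun i => isOpen_lt continuous_const (hc i)) (by
      intro x hx
      have hx0 : x ≠ 0 := by
        intro h0
        rw [h0] at hx
        simp at hx
      obtain ⟨i, hi⟩ := hpos x hx0
      exact Set.mem_iUnion.2 ⟨i, hi⟩)
  refine ⟨δ, hδ, fun θ => ?_⟩
  obtain ⟨i, hi⟩ := h (un θ) (by rw [mem_sphere_zero_iff_norm]; exact norm_un θ)
  refine ⟨i, fun θ' hθ' => hi ?_⟩
  rw [Metric.mem_ball]
  exact lt_of_le_of_lt (dist_un _ _) hθ'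

theorem exists_tents (g : Fin 10 → E2 → ℝ) (hc : ∀ i, Continuous (g i))
    (hhom : ∀ i (a : ℝ) x, g i (a • x) = |a| * g i x)
    (hpos : ∀ x, x ≠ 0 → ∃ i, 0 < g i x) (o : Fin 10) (ho : ∃ x, 0 < g o x) :
    ∃ Φ : Op2 → Fin 10 → ℝ, Continuous Φ ∧ (∀ (r : ℝ) s, 0 ≤ r → Φ (r • s) = r • Φ s) ∧
      (∀ s i, 0 ≤ Φ s i) ∧ (∀ s : Op2, s.IsPositive → s ≠ 0 → ∃ i, 0 < Φ s i) ∧
      (∀ s : Op2, s.IsPositive → ∀ i, 0 < Φ s i → ∃ x, 0 < g i (s x)) ∧
      ∀ s : Op2, ∃ p q, (∃ x, 0 < g p x) ∧ (∃ x, 0 < g q x) ∧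
        ∀ i, 0 < Φ s i → i = p ∨ i = q ∨ i = o := by
  obtain ⟨η, hη, hw⟩ := exists_width g hc hpos
  have hp := Real.pi_pos
  obtain ⟨N, hN⟩ : ∃ N : ℕ, 2 ≤ N ∧ Real.pi / N < η := by
    obtain ⟨n, hn⟩ := exists_nat_gt (Real.pi / η)
    have hn0 : 0 < Real.pi / η := by positivity
    have hn1 : (0 : ℝ) < n := hn0.trans hn
    refine ⟨n + 2, by omega, ?_⟩
    rw [div_lt_comm₀ (by positivity) hη]
    push_cast
    linarith
  obtain ⟨hN2, hNη⟩ := hN
  have hN0 : (0 : ℝ) < N := by
    have : 0 < N := by omega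
    exact_mod_cast this
  set r : ℝ := Real.pi / N with hr
  have hr0 : 0 < r := by positivity
  have hr2 : 2 * r ≤ Real.pi := by
    rw [hr, ← mul_div_assoc, div_le_iff₀ hN0]
    have : (2 : ℝ) ≤ N := by exact_mod_cast hN2
    nlinarith
  choose col hcol using fun j : ℕ => hw (r * j)
  have hcolpos : ∀ j, ∃ x, 0 < g (col j) x := fun j =>
    ⟨un (r * j), hcol j _ (by simpa using hη)⟩
  -- a positive tent gives a good colour
  have hgood : ∀ (s : Op2) (j : ℕ), 0 < tent r (r * j) s →
      ∃ k : ℤ, |an s - r * j - k * Real.pi| < r := fun s j h =>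
    exists_near hr0.le hr2 ((tent_pos _ _ _).1 h).2
  have hcolan : ∀ (s : Op2) (j : ℕ), 0 < tent r (r * j) s → 0 < g (col j) (un (an s)) := by
    intro s j h
    obtain ⟨k, hk⟩ := hgood s j h
    have h1 : 0 < g (col j) (un (an s + ((-k : ℤ) : ℝ) * Real.pi)) := by
      apply hcol j
      have e : an s + ((-k : ℤ) : ℝ) * Real.pi - r * j = an s - r * j - k * Real.pi := by
        push_cast; ring
      rw [e]
      exact hk.trans hNη
    rcases un_add_int (an s) (-k) with h2 | h2
    · rwa [h2] at h1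
    · rw [h2] at h1
      have := hhom (col j) (-1) (un (an s))
      simp only [neg_smul, one_smul, abs_neg, abs_one, one_mul] at this
      rwa [this] at h1
  -- which tents are positive
  have hidx : ∀ (s : Op2) (j : ℕ), j < N → 0 < tent r (r * j) s →
      (j : ℤ) = ⌊an s / r⌋ % N ∨ (j : ℤ) = (⌊an s / r⌋ + 1) % N := by
    intro s j hj h
    obtain ⟨k, hk⟩ := hgood s j h
    have hNr : Real.pi = N * r := by rw [hr]; field_simp
    have h1 : |an s / r - (j + k * N : ℤ)| < 1 := by
      have e : an s - r * j - k * Real.pi = r * (an s / r - (j + k * N : ℤ)) := by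
        push_cast
        rw [hNr]
        field_simp
        ring
      rw [e, abs_mul, abs_of_pos hr0] at hk
      have := (mul_lt_iff_lt_one_right hr0).1 hk
      exact this
    rw [abs_lt] at h1
    set m : ℤ := j + k * N with hm
    have h2 : ⌊an s / r⌋ ≤ m := by
      have h3 := Int.floor_le (an s / r)
      have h4 : (⌊an s / r⌋ : ℝ) < m + 1 := by push_cast at h1 ⊢; linarith
      have h5 : ⌊an s / r⌋ < m + 1 := by exact_mod_cast h4
      omega
    have h3 : m ≤ ⌊an s / r⌋ + 1 := by
      have h4 := Int.lt_floor_add_one (an s / r)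
      have h5 : (m : ℝ) < (⌊an s / r⌋ + 1 : ℤ) + 1 := by push_cast at h1 ⊢; linarith
      have h6 : m < (⌊an s / r⌋ + 1) + 1 := by exact_mod_cast h5
      omega
    have h4 : (j : ℤ) = m % N := by
      rw [hm, Int.add_mul_emod_self_right]
      exact (Int.emod_eq_of_lt (by omega) (by exact_mod_cast hj)).symm
    rcases (by omega : m = ⌊an s / r⌋ ∨ m = ⌊an s / r⌋ + 1) with h5 | h5
    · left; rw [h4, h5]
    · right; rw [h4, h5]
  -- some tent is positive
  have hsome : ∀ s : Op2, 0 < ‖zz s‖ → ∃ j < N, 0 < tent r (r * j) s := by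
    intro s hs
    set m : ℤ := ⌊an s / r⌋ with hm
    have hNZ : (0 : ℤ) < N := by omega
    have h1 : 0 ≤ m % N := Int.emod_nonneg _ hNZ.ne'
    have h2 : m % N < N := Int.emod_lt_of_pos _ hNZ
    obtain ⟨j, hj⟩ := Int.eq_ofNat_of_zero_le h1
    refine ⟨j, by omega, (tent_pos _ _ _).2 ⟨hs, ?_⟩⟩
    have hNr : Real.pi = N * r := by rw [hr]; field_simp
    have h3 : (m : ℝ) = j + N * (m / N : ℤ) := by
      have := Int.emod_add_mul_ediv m N
      rw [hj] at this
      exact_mod_cast this.symm
    set k : ℤ := m / N with hk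
    have h4 : 2 * (an s - r * j) = 2 * (an s - r * m) + k * (2 * Real.pi) := by
      rw [h3, hNr]; ring
    rw [h4, Real.cos_add_int_mul_two_pi]
    have h5 : 0 ≤ an s - r * m := by
      have := Int.floor_le (an s / r)
      rw [le_div_iff₀ hr0] at this
      linarith
    have h6 : an s - r * m < r := by
      have := Int.lt_floor_add_one (an s / r)
      rw [div_lt_iff₀ hr0] at this
      linarith
    exact Real.cos_lt_cos_of_nonneg_of_le_pi (by linarith) hr2 (by linarith)
  refine ⟨fun s i => (∑ j ∈ Finset.range N, if col j = i then tent r (r * j) s else 0) +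
    (if i = o then max 0 (ea s + ed s - ‖zz s‖) else 0), ?_, ?_, ?_, ?_, ?_, ?_⟩
  · refine continuous_pi fun i => (continuous_finsetSum _ fun j _ => ?_).add ?_
    · split_ifs
      · exact cont_tent _ _
      · exact continuous_const
    · split_ifs
      · exact continuous_const.max ((cont_ea.add cont_ed).sub cont_zz.norm)
      · exact continuous_const
  · intro c s hc0
    funext i
    simp only [Pi.smul_apply, smul_eq_mul, mul_add, Finset.mul_sum]
    congr 1
    · refine Finset.sum_congr rfl fun j _ => ?_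
      split_ifs
      · exact tent_smul _ _ _ hc0 s
      · rw [mul_zero]
    · split_ifs
      · rw [mul_max_of_nonneg _ _ hc0, mul_zero, ea_smul, ed_smul, zz_smul, norm_mul,
          Complex.norm_real, Real.norm_eq_abs, abs_of_nonneg hc0]
        congr 1
        ring
      · rw [mul_zero]
  · intro s i
    refine add_nonneg (Finset.sum_nonneg fun j _ => ?_) ?_
    · split_ifs
      · exact tent_nonneg _ _ _
      · exact le_rfl
    · split_ifs
      · exact le_max_left _ _
      · exact le_rfl
  · intro s hs hs0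
    have ht := trace_pos hs hs0
    have hnn : ∀ i, 0 ≤ ∑ j ∈ Finset.range N, if col j = i then tent r (r * j) s else 0 :=
      fun i => Finset.sum_nonneg fun j _ => by
        split_ifs
        · exact tent_nonneg _ _ _
        · exact le_rfl
    rcases lt_or_ge ‖zz s‖ (ea s + ed s) with h | h
    · refine ⟨o, add_pos_of_nonneg_of_pos (hnn o) ?_⟩
      rw [if_pos rfl]
      exact lt_max_of_lt_right (by linarith)
    · obtain ⟨j, hj, hjt⟩ := hsome s (lt_of_lt_of_le ht h)
      refine ⟨col j, add_pos_of_pos_of_nonneg ?_ ?_⟩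
      · refine Finset.sum_pos' (fun j _ => ?_) ⟨j, Finset.mem_range.2 hj, ?_⟩
        · split_ifs
          · exact tent_nonneg _ _ _
          · exact le_rfl
        · rw [if_pos rfl]; exact hjt
      · split_ifs
        · exact le_max_left _ _
        · exact le_rfl
  · intro s hs i hi
    rcases lt_or_ge ‖zz s‖ (ea s + ed s) with h | h
    · have hx : ∃ x, 0 < g i x := by
        by_contra hcon
        push Not at hcon
        have h1 : ∀ j, col j ≠ i := by
          rintro j rfl
          obtain ⟨x, hx⟩ := hcolpos j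
          exact absurd hx (not_lt.2 (hcon x))
        have h2 : i ≠ o := by
          rintro rfl
          obtain ⟨x, hx⟩ := ho
          exact absurd hx (not_lt.2 (hcon x))
        simp [h1, h2] at hi
      obtain ⟨y, hy⟩ := hx
      obtain ⟨x, rfl⟩ := surj_of_lt hs h y
      exact ⟨x, hy⟩
    · have heq : ‖zz s‖ = ea s + ed s := le_antisymm (norm_zz_le hs) h
      have h0 : (if i = o then max 0 (ea s + ed s - ‖zz s‖) else 0) = 0 := by
        rw [heq, sub_self, max_self]; simp
      simp only [h0, add_zero] at hi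
      obtain ⟨j, -, hj⟩ := Finset.exists_lt_of_sum_lt (by simpa using hi :
        ∑ j ∈ Finset.range N, (0 : ℝ) < ∑ j ∈ Finset.range N,
          if col j = i then tent r (r * j) s else 0)
      split_ifs at hj with hji
      · subst hji
        refine ⟨un (an s), ?_⟩
        rw [apply_un hs heq, hhom]
        exact mul_pos (abs_pos.2 ((tent_pos _ _ _).1 hj).1.ne') (hcolan s j hj)
      · exact absurd hj (lt_irrefl _)
  · intro s
    refine ⟨col (⌊an s / r⌋ % N).toNat, col ((⌊an s / r⌋ + 1) % N).toNat, hcolpos _, hcolpos _,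
      fun i hi => ?_⟩
    by_cases hio : i = o
    · exact Or.inr (Or.inr hio)
    · simp only [if_neg hio, add_zero] at hi
      obtain ⟨j, hjN, hj⟩ := Finset.exists_lt_of_sum_lt (by simpa using hi :
        ∑ j ∈ Finset.range N, (0 : ℝ) < ∑ j ∈ Finset.range N,
          if col j = i then tent r (r * j) s else 0)
      split_ifs at hj with hji
      · subst hji
        rcases hidx s j (Finset.mem_range.1 hjN) hj with h | h
        · left; rw [← h]; simp
        · right; left; rw [← h]; simp
      · exact absurd hj (lt_irrefl _)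

end Vale.Agent.P052.R2.H495
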